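import Mathlib
import Vale.Agent.Lib.P248.helper1.ConeAux

/-!
# P248-CQC1 (pool job 419): the shear preimage of the slab model lies in the polar of the cone
-/

namespace Vale.Agent.Lib.P248.H43

open MeasureTheory Set
open scoped ENNReal
open Vale.Agent.Lib.P227 Vale.Agent.Lib.P248.H1

/-- The inner product of a point written with `ecomb` against an arbitrary point. -/
theorem inner_ecomb_left {n : ℕ} (t : ℝ) (w : EuclideanSpace ℝ (Fin n))
    (y : EuclideanSpace ℝ (Fin (n + 1))) :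
    inner ℝ (ecomb t w) y = t * y 0 + inner ℝ w (etail y) := by
  have h1 := inner_ecomb t (y 0) w (etail y)
  rwa [ecomb_eta] at h1

theorem shear_preimage_subset_polar {n : ℕ} (D : Set (EuclideanSpace ℝ (Fin n)))
    (c ζ : EuclideanSpace ℝ (Fin n)) (h τ : ℝ) (hh : 0 < h) (hτ0 : 0 < τ) (hτ1 : τ < 1) :
    shear (c - ζ) h ⁻¹' polarModel D ζ τ
      ⊆ polarAt (coneE D c h) (ecomb (τ * h) ((1 - τ) • ζ + τ • c)) := by
  have _hh := hh
  have _hτ0 := hτ0
  intro y hy
  have hy' : -1 / τ ≤ shear (c - ζ) h y 0 ∧ shear (c - ζ) h y 0 ≤ 1 / (1 - τ) ∧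
      ∀ d ∈ D, inner ℝ (d - ζ) (etail (shear (c - ζ) h y)) ≤ 1 + τ * shear (c - ζ) h y 0 := hy
  have hs0 : shear (c - ζ) h y 0 = h * y 0 + inner ℝ (c - ζ) (etail y) := ecomb_zero _ _
  have hst : etail (shear (c - ζ) h y) = etail y := etail_ecomb _ _
  obtain ⟨-, h2, h3⟩ := hy'
  rw [hs0, inner_sub_left] at h2
  have hτ' : 0 < 1 - τ := by linarith
  have h2' : (h * y 0 + (inner ℝ c (etail y) - inner ℝ ζ (etail y))) * (1 - τ) ≤ 1 :=
    (le_div_iff₀ hτ').mp h2
  show ∀ x ∈ coneE D c h, inner ℝ (x - ecomb (τ * h) ((1 - τ) • ζ + τ • c)) y ≤ 1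
  intro x hx
  obtain ⟨d, hd, r, hr0, hr1, rfl⟩ := hx
  have h3' := h3 d hd
  rw [hs0, hst, inner_sub_left, inner_sub_left] at h3'
  rw [inner_sub_left, inner_ecomb_left, inner_ecomb_left, inner_add_left, inner_add_left,
    real_inner_smul_left, real_inner_smul_left, real_inner_smul_left, real_inner_smul_left]
  have P1 := mul_nonneg hr0 (sub_nonneg.mpr h2')
  have P2 := mul_nonneg (sub_nonneg.mpr hr1) (sub_nonneg.mpr h3')
  nlinarith [P1, P2]

end Vale.Agent.Lib.P248.H43
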