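import Mathlib
import Vale.Agent.Lib.P248.helper1.ConeDefs

/-!
# P248 (pool job 434): the volume of the image of a set under `y ↦ (1 - ⟪z, y⟫)⁻¹ • y`
-/

namespace Vale.Agent.Lib.P248.H43Y

open MeasureTheory Set
open scoped ENNReal
open Vale.Agent.Lib.P248.H1

/-- The derivative of `y ↦ (1 - ⟪z, y⟫)⁻¹ • y` at `y`. -/
noncomputable def projDeriv {m : ℕ} (z y : EuclideanSpace ℝ (Fin m)) :
    EuclideanSpace ℝ (Fin m) →L[ℝ] EuclideanSpace ℝ (Fin m) :=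
  (1 - inner ℝ z y)⁻¹ • ContinuousLinearMap.id ℝ (EuclideanSpace ℝ (Fin m))
    + ((-((1 - inner ℝ z y) ^ 2)⁻¹) • (-(innerSL ℝ z))).smulRight y

theorem hasFDerivAt_proj {m : ℕ} (z y : EuclideanSpace ℝ (Fin m)) (hy : inner ℝ z y < 1) :
    HasFDerivAt (fun y : EuclideanSpace ℝ (Fin m) => (1 - inner ℝ z y)⁻¹ • y)
      (projDeriv z y) y := by
  have hne : (1 - inner ℝ z y) ≠ 0 := by
    have h1 : 0 < 1 - inner ℝ z y := by linarith
    exact h1.ne'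
  have hg : HasFDerivAt (fun y : EuclideanSpace ℝ (Fin m) => 1 - inner ℝ z y)
      (-(innerSL ℝ z)) y := by
    have h1 : HasFDerivAt (fun y : EuclideanSpace ℝ (Fin m) => innerSL ℝ z y) (innerSL ℝ z) y :=
      (innerSL ℝ z).hasFDerivAt
    exact h1.const_sub 1
  have hc : HasFDerivAt (fun y : EuclideanSpace ℝ (Fin m) => (1 - inner ℝ z y)⁻¹)
      ((-((1 - inner ℝ z y) ^ 2)⁻¹) • (-(innerSL ℝ z))) y :=
    (hasDerivAt_inv hne).comp_hasFDerivAt y hg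
  exact hc.smul (hasFDerivAt_id y)

theorem det_projDeriv {m : ℕ} (z y : EuclideanSpace ℝ (Fin m)) (hy : inner ℝ z y < 1) :
    (projDeriv z y).det = (1 - inner ℝ z y)⁻¹ ^ (m + 1) := by
  have hpos : 0 < 1 - inner ℝ z y := by linarith
  have hne : (1 - inner ℝ z y) ≠ 0 := hpos.ne'
  have hlin : ((projDeriv z y : EuclideanSpace ℝ (Fin m) →L[ℝ] EuclideanSpace ℝ (Fin m)) :
      EuclideanSpace ℝ (Fin m) →ₗ[ℝ] EuclideanSpace ℝ (Fin m))
      = (1 - inner ℝ z y)⁻¹ • LinearMap.transvection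
          ((1 - inner ℝ z y)⁻¹ • ((innerSL ℝ z : EuclideanSpace ℝ (Fin m) →L[ℝ] ℝ) :
            EuclideanSpace ℝ (Fin m) →ₗ[ℝ] ℝ)) y := by
    ext v : 1
    show (1 - inner ℝ z y)⁻¹ • v + ((-((1 - inner ℝ z y) ^ 2)⁻¹) * (-(inner ℝ z v))) • y
      = (1 - inner ℝ z y)⁻¹ • (v + ((1 - inner ℝ z y)⁻¹ * inner ℝ z v) • y)
    rw [smul_add, smul_smul]
    congr 2
    field_simp
  have hdet : (projDeriv z y).det
      = LinearMap.det ((projDeriv z y : EuclideanSpace ℝ (Fin m) →L[ℝ] EuclideanSpace ℝ (Fin m)) :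
          EuclideanSpace ℝ (Fin m) →ₗ[ℝ] EuclideanSpace ℝ (Fin m)) := rfl
  rw [hdet, hlin, LinearMap.det_smul, LinearMap.transvection.det, finrank_euclideanSpace_fin]
  have h1 : ((1 - inner ℝ z y)⁻¹ • ((innerSL ℝ z : EuclideanSpace ℝ (Fin m) →L[ℝ] ℝ) :
      EuclideanSpace ℝ (Fin m) →ₗ[ℝ] ℝ)) y = (1 - inner ℝ z y)⁻¹ * inner ℝ z y := rfl
  rw [h1, pow_succ]
  congr 1
  field_simp
  ring

theorem injOn_proj {m : ℕ} (z : EuclideanSpace ℝ (Fin m)) (T : Set (EuclideanSpace ℝ (Fin m)))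
    (hlt : ∀ y ∈ T, inner ℝ z y < 1) :
    InjOn (fun y : EuclideanSpace ℝ (Fin m) => (1 - inner ℝ z y)⁻¹ • y) T := by
  intro y hy y' hy' h
  have h' : (1 - inner ℝ z y)⁻¹ • y = (1 - inner ℝ z y')⁻¹ • y' := h
  have hpos : 0 < 1 - inner ℝ z y := by linarith [hlt y hy]
  have hpos' : 0 < 1 - inner ℝ z y' := by linarith [hlt y' hy']
  have h1 := congrArg (fun w => inner ℝ z w) h'
  simp only [real_inner_smul_right] at h1
  have h2 : inner ℝ z y * (1 - inner ℝ z y') = inner ℝ z y' * (1 - inner ℝ z y) := by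
    field_simp at h1
    linarith
  have h3 : inner ℝ z y = inner ℝ z y' := by linarith
  rw [h3] at h'
  exact smul_right_injective _ (inv_ne_zero hpos'.ne') h'

theorem volume_image_proj {m : ℕ} (z : EuclideanSpace ℝ (Fin m))
    (T : Set (EuclideanSpace ℝ (Fin m))) (hT : MeasurableSet T)
    (hlt : ∀ y ∈ T, inner ℝ z y < 1) :
    volume ((fun y : EuclideanSpace ℝ (Fin m) => (1 - inner ℝ z y)⁻¹ • y) '' T)
      = ∫⁻ y in T, ENNReal.ofReal ((1 - inner ℝ z y)⁻¹ ^ (m + 1)) := by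
  rw [← lintegral_abs_det_fderiv_eq_addHaar_image volume hT
    (fun y hy => (hasFDerivAt_proj z y (hlt y hy)).hasFDerivWithinAt) (injOn_proj z T hlt)]
  refine setLIntegral_congr_fun hT (fun y hy => ?_)
  have hpos : 0 < 1 - inner ℝ z y := by linarith [hlt y hy]
  show ENNReal.ofReal |(projDeriv z y).det| = ENNReal.ofReal ((1 - inner ℝ z y)⁻¹ ^ (m + 1))
  rw [det_projDeriv z y (hlt y hy), abs_of_pos (pow_pos (inv_pos.mpr hpos) _)]

end Vale.Agent.Lib.P248.H43Y
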