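import Mathlib
import Vale.Agent.Lib.P248.helper37.Q2Defs

/-!
# P248 (pool job 453, second copy): coordinate sections of the positive part of the polar
about a point, and of admissible pairs
-/

open MeasureTheory Set

namespace Vale.Agent.Lib.P248.H43Q

open Vale.Agent.Lib.P248.H37 Vale.Agent.Lib.P248.H37Q

theorem sec_posZ {n : ℕ} {A : Set (Fin (n + 1) → ℝ)} (hA : Good A) (z : Fin (n + 1) → ℝ)
    (i : Fin (n + 1)) :
    sec (posZ A z) i = posZ (sec A i) (fun k => z (i.succAbove k)) := by
  ext w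
  constructor
  · rintro ⟨hw, h⟩
    refine ⟨fun k => ?_, fun x hx => ?_⟩
    · have h1 := hw (i.succAbove k)
      rwa [ins_succ] at h1
    · have h1 := h _ hx
      rw [Fin.sum_univ_succAbove _ i] at h1
      simp only [ins_same, ins_succ, mul_zero, zero_add] at h1
      exact h1
  · rintro ⟨hw, h⟩
    refine ⟨?_, fun x hx => ?_⟩
    · rw [Fin.forall_iff_succAbove i]
      refine ⟨?_, fun k => ?_⟩
      · rw [ins_same]
      · rw [ins_succ]
        exact hw k
    · rw [Fin.sum_univ_succAbove _ i]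
      simp only [ins_same, ins_succ, mul_zero, zero_add]
      have hz : (fun k => x (i.succAbove k)) ∈ sec A i := by
        apply hA.down x hx
        rw [Fin.forall_iff_succAbove i]
        refine ⟨?_, fun k => ?_⟩
        · rw [ins_same]
          exact ⟨le_refl _, hA.nonneg x hx i⟩
        · rw [ins_succ]
          exact ⟨hA.nonneg x hx _, le_refl _⟩
      exact h _ hz

theorem adm_sec {n : ℕ} {A : Set (Fin (n + 1) → ℝ)} {z : Fin (n + 1) → ℝ} (h : Adm A z)
    (i : Fin (n + 1)) : Adm (sec A i) (fun k => z (i.succAbove k)) := by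
  obtain ⟨ε, hε, hmem⟩ := h.room
  refine ⟨good_sec h.good i, fun k => h.pos _, ⟨ε, hε, ?_⟩⟩
  show (Fin.insertNth i (0 : ℝ) (fun k => z (i.succAbove k) + ε) : Fin (n + 1) → ℝ) ∈ A
  apply h.good.down _ hmem
  rw [Fin.forall_iff_succAbove i]
  refine ⟨?_, fun k => ?_⟩
  · rw [ins_same]
    have h1 := h.pos i
    exact ⟨le_refl _, by show (0 : ℝ) ≤ z i + ε; linarith⟩
  · rw [ins_succ]
    have h1 := h.pos (i.succAbove k)
    exact ⟨by show (0 : ℝ) ≤ z (i.succAbove k) + ε; linarith, le_refl _⟩

end Vale.Agent.Lib.P248.H43Q
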